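import Mathlib

/-!
# P160, piece SS-1: the abstract lazy-chain lemma (`chain_level`)

Abstract form of steps (ii) and (iii) of the elementary Sarkozy-Szemeredi argument:
a weighted directed graph `q` on a finite set whose moves strictly increase a height `f`,
raise a size `sz` by zero or one, and satisfy the balance identity
`in - out = (sz - n/2)/n`, exits every level set of `f` (restricted to sizes at least
`n/2 - sqrt n`) with total out-weight at most `10 * card / sqrt n`.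
-/

open Finset

namespace Vale.Agent.Lib.P160.H44

/-- mass of the lazy chain after `k` steps, started from the counting measure -/
noncomputable def uch {Ω : Type} [Fintype Ω] (q : Ω → Ω → ℝ) (n : ℕ) : ℕ → Ω → ℝ
  | 0, _ => 1
  | (k + 1), S => uch q n k S * (1 - (∑ S', q S S') / (n : ℝ)) +
      (1 / (n : ℝ)) * ∑ S', q S' S * uch q n k S'

/-- the comparison profile -/
noncomputable def psi (n k : ℕ) (j : ℝ) : ℝ :=
  Real.exp ((k : ℝ) * (j - (n : ℝ) / 2) / ((n : ℝ) * n)
    - (k : ℝ) * ((k : ℝ) - 1) / (4 * (n : ℝ) * (n : ℝ) ^ 2) - (k : ℝ) / (n : ℝ) ^ 2)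

theorem psi_pos (n k : ℕ) (j : ℝ) : 0 < psi n k j := Real.exp_pos _

theorem uch_succ {Ω : Type} [Fintype Ω] (q : Ω → Ω → ℝ) (n k : ℕ) (S : Ω) :
    uch q n (k + 1) S = uch q n k S * (1 - (∑ S', q S S') / (n : ℝ)) +
      (1 / (n : ℝ)) * ∑ S', q S' S * uch q n k S' := rfl

theorem uch_zero {Ω : Type} [Fintype Ω] (q : Ω → Ω → ℝ) (n : ℕ) (S : Ω) :
    uch q n 0 S = 1 := rfl

theorem uch_nonneg {Ω : Type} [Fintype Ω] (q : Ω → Ω → ℝ) (n : ℕ) (hnpos : (0 : ℝ) < n)
    (hq0 : ∀ S S', 0 ≤ q S S') (hout : ∀ S, ∑ S', q S S' ≤ n) : ∀ k S, 0 ≤ uch q n k S := by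
  intro k
  induction k with
  | zero => intro S; rw [uch_zero]; norm_num
  | succ k ih =>
    intro S
    rw [uch_succ]
    have h1 : 0 ≤ 1 - (∑ S', q S S') / (n : ℝ) := by
      rw [sub_nonneg, div_le_one hnpos]; exact hout S
    have h2 : 0 ≤ ∑ S', q S' S * uch q n k S' :=
      Finset.sum_nonneg fun S' _ => mul_nonneg (hq0 S' S) (ih S')
    have h3 := ih S
    positivity

theorem psi_diff (n k : ℕ) (hn : 0 < n) (j : ℝ) :
    0 ≤ psi n k j - psi n k (j - 1) ∧
    psi n k j - psi n k (j - 1) ≤ psi n k j * ((k : ℝ) / ((n : ℝ) * n)) := by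
  have hnpos : (0 : ℝ) < n := by exact_mod_cast hn
  have h1 : psi n k (j - 1) = psi n k j * Real.exp (-((k : ℝ) / ((n : ℝ) * n))) := by
    unfold psi
    rw [← Real.exp_add]
    congr 1
    field_simp
    ring
  have h2 : -((k : ℝ) / ((n : ℝ) * n)) + 1 ≤ Real.exp (-((k : ℝ) / ((n : ℝ) * n))) :=
    Real.add_one_le_exp _
  have h3 : Real.exp (-((k : ℝ) / ((n : ℝ) * n))) ≤ 1 := by
    rw [← Real.exp_zero]
    apply Real.exp_le_exp.mpr
    have : (0 : ℝ) ≤ (k : ℝ) / ((n : ℝ) * n) := by positivity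
    linarith
  have hp := psi_pos n k j
  constructor
  · rw [h1]; nlinarith
  · rw [h1]; nlinarith

theorem psi_step (n k : ℕ) (hn : 16 ≤ n) (j : ℝ) (hj0 : 0 ≤ j) (hjn : j ≤ n)
    (hk : (k : ℝ) ≤ n * Real.sqrt n) :
    psi n (k + 1) j ≤ psi n k j *
      (1 + (j - (n : ℝ) / 2) / ((n : ℝ) * n) - (k : ℝ) / (2 * (n : ℝ) * (n : ℝ) ^ 2)) := by
  have hn' : (16 : ℝ) ≤ n := by exact_mod_cast hn
  have hnpos : (0 : ℝ) < n := by linarith
  have hs : Real.sqrt n * Real.sqrt n = n := Real.mul_self_sqrt hnpos.le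
  have hs0 : 0 ≤ Real.sqrt n := Real.sqrt_nonneg _
  have hs4 : 4 ≤ Real.sqrt n := by
    by_contra h; push Not at h; nlinarith
  have hk0 : (0 : ℝ) ≤ k := Nat.cast_nonneg k
  have a6 : 4 * Real.sqrt n ≤ n := by nlinarith
  have a7 : (n : ℝ) * (4 * Real.sqrt n) ≤ n * n := mul_le_mul_of_nonneg_left a6 hnpos.le
  have hk4 : 4 * (k : ℝ) ≤ n * n := by linarith
  set r : ℝ := 1 / (n : ℝ) with hr
  have hrpos : 0 < r := by positivity
  have hr1 : r ≤ 1 / 16 := by
    rw [hr]; exact one_div_le_one_div_of_le (by norm_num) hn'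
  have hrn : r * n = 1 := by rw [hr]; field_simp
  set xx : ℝ := (j - (n : ℝ) / 2) / ((n : ℝ) * n) with hxx
  set d1 : ℝ := (k : ℝ) / (2 * (n : ℝ) * (n : ℝ) ^ 2) with hd1
  set d2 : ℝ := 1 / (n : ℝ) ^ 2 with hd2
  have hx1 : xx ≤ r / 2 := by
    rw [hxx, hr, div_le_div_iff₀ (by positivity) (by positivity)]
    nlinarith
  have hx2 : -(r / 2) ≤ xx := by
    rw [hxx, hr, le_div_iff₀ (by positivity)]
    have : -(1 / (n : ℝ) / 2) * ((n : ℝ) * n) = -(n / 2) := by field_simp
    rw [this]; linarith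
  have hd10 : 0 ≤ d1 := by positivity
  have hd11 : d1 ≤ r / 8 := by
    rw [hd1, hr, div_le_div_iff₀ (by positivity) (by positivity)]
    nlinarith
  have hd20 : 0 ≤ d2 := by positivity
  have hd21 : d2 ≤ r / 16 := by
    rw [hd2, hr, div_le_div_iff₀ (by positivity) (by positivity)]
    nlinarith
  have hd2r : d2 = r * r := by rw [hd2, hr]; field_simp
  set y : ℝ := xx - d1 - d2 with hy
  have h1 : psi n (k + 1) j = psi n k j * Real.exp y := by
    unfold psi
    rw [← Real.exp_add]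
    congr 1
    rw [hy, hxx, hd1, hd2]
    push_cast
    field_simp
    ring
  have hy1 : y ≤ r := by linarith
  have hy2 : -r ≤ y := by linarith
  have hyabs : |y| ≤ 1 := by rw [abs_le]; constructor <;> linarith
  have hexp := Real.abs_exp_sub_one_sub_id_le hyabs
  have hysq : y ^ 2 ≤ r * r := by nlinarith
  have hexp' : Real.exp y ≤ 1 + y + y ^ 2 := by
    have := (abs_le.mp hexp).2
    linarith
  have hfin : Real.exp y ≤ 1 + xx - d1 := by
    rw [hy] at hexp' hysq ⊢
    linarith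
  rw [h1]
  exact mul_le_mul_of_nonneg_left hfin (psi_pos n k j).le

theorem exp_lb : (1 : ℝ) / 5 ≤ Real.exp (-(3 / 2)) := by
  have h1 : Real.exp 1 < 2.7182818286 := Real.exp_one_lt_d9
  have h0 : 0 < Real.exp 1 := Real.exp_pos 1
  have h2 : Real.exp (3 / 2) * Real.exp (3 / 2) = Real.exp 1 * Real.exp 1 * Real.exp 1 := by
    rw [← Real.exp_add, ← Real.exp_add, ← Real.exp_add]; norm_num
  have h3 : Real.exp 1 * Real.exp 1 < 7.4 := by nlinarith
  have h4 : Real.exp 1 * Real.exp 1 * Real.exp 1 < 20.2 := by nlinarith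
  have h5 : Real.exp (3 / 2) ≤ 5 := by
    by_contra h; push Not at h; nlinarith
  rw [Real.exp_neg, one_div]
  exact inv_anti₀ (Real.exp_pos _) h5

theorem psi_lb (n k : ℕ) (hn : 16 ≤ n) (j : ℝ) (hj : (n : ℝ) / 2 - Real.sqrt n ≤ j)
    (hk : (k : ℝ) ≤ n * Real.sqrt n) : 1 / 5 ≤ psi n k j := by
  have hn' : (16 : ℝ) ≤ n := by exact_mod_cast hn
  have hnpos : (0 : ℝ) < n := by linarith
  have hs : Real.sqrt n * Real.sqrt n = n := Real.mul_self_sqrt hnpos.le
  have hs0 : 0 ≤ Real.sqrt n := Real.sqrt_nonneg _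
  have hs4 : 4 ≤ Real.sqrt n := by
    by_contra h; push Not at h; nlinarith
  have hk0 : (0 : ℝ) ≤ k := Nat.cast_nonneg k
  have a1 : (k : ℝ) * (-Real.sqrt n) ≤ k * (j - (n : ℝ) / 2) :=
    mul_le_mul_of_nonneg_left (by linarith) hk0
  have a2 : (k : ℝ) * Real.sqrt n ≤ ((n : ℝ) * Real.sqrt n) * Real.sqrt n :=
    mul_le_mul_of_nonneg_right hk hs0
  have a3 : ((n : ℝ) * Real.sqrt n) * Real.sqrt n = n * n := by rw [mul_assoc, hs]
  have a4 : (k : ℝ) * k ≤ ((n : ℝ) * Real.sqrt n) * ((n : ℝ) * Real.sqrt n) :=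
    mul_le_mul hk hk hk0 (by positivity)
  have a5 : ((n : ℝ) * Real.sqrt n) * ((n : ℝ) * Real.sqrt n) = n * n * n := by
    rw [mul_mul_mul_comm, hs]
  have a6 : 4 * Real.sqrt n ≤ n := by nlinarith
  have a7 : (n : ℝ) * (4 * Real.sqrt n) ≤ n * n := mul_le_mul_of_nonneg_left a6 hnpos.le
  have e1 : -1 ≤ (k : ℝ) * (j - (n : ℝ) / 2) / ((n : ℝ) * n) := by
    rw [le_div_iff₀ (by positivity)]
    linarith
  have e2 : (k : ℝ) * ((k : ℝ) - 1) / (4 * (n : ℝ) * (n : ℝ) ^ 2) ≤ 1 / 4 := by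
    rw [div_le_div_iff₀ (by positivity) (by norm_num)]
    nlinarith
  have e3 : (k : ℝ) / (n : ℝ) ^ 2 ≤ 1 / 4 := by
    rw [div_le_div_iff₀ (by positivity) (by norm_num)]
    nlinarith
  calc (1 : ℝ) / 5 ≤ Real.exp (-(3 / 2)) := exp_lb
    _ ≤ psi n k j := by
      unfold psi
      apply Real.exp_le_exp.mpr
      linarith

theorem uch_ge_psi {Ω : Type} [Fintype Ω] (q : Ω → Ω → ℝ) (sz : Ω → ℕ) (n : ℕ)
    (hn : 16 ≤ n) (hq0 : ∀ S S', 0 ≤ q S S')
    (hsz : ∀ S' S, q S' S ≠ 0 → sz S' = sz S ∨ sz S' + 1 = sz S)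
    (hent : ∀ S, ∑ S' ∈ univ.filter (fun S' => sz S' + 1 = sz S), q S' S ≤ 1 / 2)
    (hbal : ∀ S, ∑ S', q S' S - ∑ S', q S S' = ((sz S : ℝ) - n / 2) / n)
    (hout : ∀ S, ∑ S', q S S' ≤ n) (hszn : ∀ S, sz S ≤ n) :
    ∀ k : ℕ, (k : ℝ) ≤ n * Real.sqrt n → ∀ S, psi n k (sz S) ≤ uch q n k S := by
  have hn' : (16 : ℝ) ≤ n := by exact_mod_cast hn
  have hnpos : (0 : ℝ) < n := by linarith
  intro k
  induction k with
  | zero =>
    intro _ S
    rw [uch_zero]
    simp [psi]
  | succ k ih =>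
    intro hk S
    have hk' : (k : ℝ) ≤ n * Real.sqrt n := by push_cast at hk; linarith
    have IH := ih hk'
    set j : ℝ := (sz S : ℝ) with hj
    set P : ℝ := psi n k j with hP
    set P' : ℝ := psi n k (j - 1) with hP'
    have hPpos : 0 < P := psi_pos n k j
    obtain ⟨hd0, hd1⟩ := psi_diff n k (by omega) j
    have hstep := psi_step n k hn j (by positivity) (by rw [hj]; exact_mod_cast hszn S) hk'
    have h1 : P * (1 - (∑ S', q S S') / (n : ℝ)) ≤
        uch q n k S * (1 - (∑ S', q S S') / (n : ℝ)) := by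
      apply mul_le_mul_of_nonneg_right (IH S)
      rw [sub_nonneg, div_le_one hnpos]
      exact hout S
    have h2 : ∑ S', q S' S * psi n k (sz S') ≤ ∑ S', q S' S * uch q n k S' :=
      Finset.sum_le_sum fun S' _ => mul_le_mul_of_nonneg_left (IH S') (hq0 S' S)
    have h3 : ∑ S', q S' S * psi n k (sz S') =
        ∑ S', (q S' S * P - (if sz S' + 1 = sz S then q S' S * (P - P') else 0)) := by
      apply Finset.sum_congr rfl
      intro S' _
      by_cases hq : q S' S = 0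
      · simp [hq]
      · rcases hsz S' S hq with h | h
        · have hne : ¬ (sz S' + 1 = sz S) := by omega
          rw [if_neg hne, h, sub_zero]
        · rw [if_pos h]
          have hc : ((sz S' : ℕ) : ℝ) = j - 1 := by rw [hj, ← h]; push_cast; ring
          rw [hc]; ring
    have h4 : ∑ S', (q S' S * P - (if sz S' + 1 = sz S then q S' S * (P - P') else 0)) =
        (∑ S', q S' S) * P -
          (∑ S' ∈ univ.filter (fun S' => sz S' + 1 = sz S), q S' S) * (P - P') := by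
      rw [Finset.sum_sub_distrib, Finset.sum_mul, Finset.sum_mul, Finset.sum_filter]
    have he := hent S
    have hb := hbal S
    rw [uch_succ]
    have h5 : (∑ S' ∈ univ.filter (fun S' => sz S' + 1 = sz S), q S' S) * (P - P') ≤
        (1 / 2) * (P * ((k : ℝ) / ((n : ℝ) * n))) := by
      calc (∑ S' ∈ univ.filter (fun S' => sz S' + 1 = sz S), q S' S) * (P - P')
          ≤ (1 / 2) * (P - P') := mul_le_mul_of_nonneg_right he hd0
        _ ≤ (1 / 2) * (P * ((k : ℝ) / ((n : ℝ) * n))) := by linarith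
    have h6 : (1 / (n : ℝ)) * ((∑ S', q S' S) * P - (1 / 2) * (P * ((k : ℝ) / ((n : ℝ) * n)))) ≤
        (1 / (n : ℝ)) * ∑ S', q S' S * uch q n k S' := by
      apply mul_le_mul_of_nonneg_left _ (by positivity)
      calc (∑ S', q S' S) * P - (1 / 2) * (P * ((k : ℝ) / ((n : ℝ) * n)))
          ≤ (∑ S', q S' S) * P -
            (∑ S' ∈ univ.filter (fun S' => sz S' + 1 = sz S), q S' S) * (P - P') := by linarith
        _ = ∑ S', q S' S * psi n k (sz S') := by rw [h3, h4]
        _ ≤ _ := h2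
    have h7 : P * (1 + (j - (n : ℝ) / 2) / ((n : ℝ) * n) - (k : ℝ) / (2 * (n : ℝ) * (n : ℝ) ^ 2)) =
        P * (1 - (∑ S', q S S') / (n : ℝ)) +
        (1 / (n : ℝ)) * ((∑ S', q S' S) * P - (1 / 2) * (P * ((k : ℝ) / ((n : ℝ) * n)))) := by
      have hin : (∑ S', q S' S) = (∑ S', q S S') + (j - n / 2) / n := by linarith
      rw [hin]
      field_simp
      ring
    linarith

/-- **SS-1, the abstract chain lemma.** -/
theorem chain_level {Ω : Type} [Fintype Ω] [DecidableEq Ω] (q : Ω → Ω → ℝ) (f : Ω → ℝ)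
    (sz : Ω → ℕ) (n : ℕ) (hn : 16 ≤ n)
    (hq0 : ∀ S S', 0 ≤ q S S') (hf : ∀ S S', q S S' ≠ 0 → f S < f S')
    (hsz : ∀ S' S, q S' S ≠ 0 → sz S' = sz S ∨ sz S' + 1 = sz S)
    (hent : ∀ S, ∑ S' ∈ univ.filter (fun S' => sz S' + 1 = sz S), q S' S ≤ 1 / 2)
    (hbal : ∀ S, ∑ S', q S' S - ∑ S', q S S' = ((sz S : ℝ) - n / 2) / n)
    (hout : ∀ S, ∑ S', q S S' ≤ n) (hszn : ∀ S, sz S ≤ n) (x : ℝ) :
    Real.sqrt n * ∑ S ∈ univ.filter (fun S => f S = x ∧ (n : ℝ) / 2 - Real.sqrt n ≤ sz S),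
      ∑ S', q S S' ≤ 10 * Fintype.card Ω := by
  have hn' : (16 : ℝ) ≤ n := by exact_mod_cast hn
  have hnpos : (0 : ℝ) < n := by linarith
  have hs : Real.sqrt n * Real.sqrt n = n := Real.mul_self_sqrt hnpos.le
  have hs0 : 0 ≤ Real.sqrt n := Real.sqrt_nonneg _
  have hs4 : 4 ≤ Real.sqrt n := by
    by_contra h; push Not at h; nlinarith
  have hu0 : ∀ k S, 0 ≤ uch q n k S := uch_nonneg q n hnpos hq0 hout
  have hub := uch_ge_psi q sz n hn hq0 hsz hent hbal hout hszn
  have hout0 : ∀ S, 0 ≤ ∑ S', q S S' := fun S => Finset.sum_nonneg fun S' _ => hq0 S S'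
  set T : ℝ := ∑ S ∈ univ.filter (fun S => f S = x ∧ (n : ℝ) / 2 - Real.sqrt n ≤ sz S),
    ∑ S', q S S' with hT
  have hT0 : 0 ≤ T := Finset.sum_nonneg fun S _ => hout0 S
  set m : ℕ → ℝ := fun k => ∑ S ∈ univ.filter (fun S => f S ≤ x), uch q n k S with hm
  have hm0 : ∀ k, 0 ≤ m k := fun k => Finset.sum_nonneg fun S _ => hu0 k S
  have hm00 : m 0 ≤ Fintype.card Ω := by
    show ∑ S ∈ univ.filter (fun S => f S ≤ x), uch q n 0 S ≤ _
    simp only [uch_zero]
    rw [Finset.sum_const, nsmul_eq_mul, mul_one]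
    exact_mod_cast Finset.card_le_univ _
  have hstep : ∀ k : ℕ, (k : ℝ) ≤ n * Real.sqrt n →
      m (k + 1) ≤ m k - (1 / (n : ℝ)) * ((1 / 5) * T) := by
    intro k hk
    have c1 : ∑ S ∈ univ.filter (fun S => f S ≤ x), ∑ S', q S' S * uch q n k S' ≤
        ∑ S' ∈ univ.filter (fun S => f S < x), uch q n k S' * ∑ S, q S' S := by
      rw [Finset.sum_comm, Finset.sum_filter]
      apply Finset.sum_le_sum
      intro S' _
      by_cases h : f S' < x
      · rw [if_pos h, ← Finset.sum_mul, mul_comm]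
        apply mul_le_mul_of_nonneg_left _ (hu0 k S')
        exact Finset.sum_le_univ_sum_of_nonneg (fun S => hq0 S' S)
      · rw [if_neg h]
        apply le_of_eq
        apply Finset.sum_eq_zero
        intro S hS
        have hS' : f S ≤ x := (Finset.mem_filter.mp hS).2
        have hq : q S' S = 0 := by
          by_contra hq
          have := hf S' S hq
          linarith
        rw [hq, zero_mul]
    have c2 : ∑ S ∈ univ.filter (fun S => f S ≤ x), uch q n k S * ∑ S', q S S' =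
        ∑ S ∈ univ.filter (fun S => f S < x), uch q n k S * ∑ S', q S S' +
        ∑ S ∈ univ.filter (fun S => f S = x), uch q n k S * ∑ S', q S S' := by
      rw [Finset.sum_filter, Finset.sum_filter, Finset.sum_filter, ← Finset.sum_add_distrib]
      apply Finset.sum_congr rfl
      intro S _
      rcases lt_trichotomy (f S) x with h | h | h
      · rw [if_pos h.le, if_pos h, if_neg h.ne, add_zero]
      · rw [if_pos h.le, if_neg (by rw [h]; exact lt_irrefl _), if_pos h, zero_add]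
      · rw [if_neg (not_le.mpr h), if_neg (not_lt.mpr h.le), if_neg h.ne', add_zero]
    have c3 : (1 / 5) * T ≤
        ∑ S ∈ univ.filter (fun S => f S = x), uch q n k S * ∑ S', q S S' := by
      rw [hT, Finset.mul_sum]
      calc ∑ S ∈ univ.filter (fun S => f S = x ∧ (n : ℝ) / 2 - Real.sqrt n ≤ sz S),
            (1 / 5) * ∑ S', q S S'
          ≤ ∑ S ∈ univ.filter (fun S => f S = x ∧ (n : ℝ) / 2 - Real.sqrt n ≤ sz S),
            uch q n k S * ∑ S', q S S' := by
            apply Finset.sum_le_sum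
            intro S hS
            have hS' := (Finset.mem_filter.mp hS).2.2
            apply mul_le_mul_of_nonneg_right _ (hout0 S)
            exact (psi_lb n k hn _ hS' hk).trans (hub k hk S)
        _ ≤ _ := by
            apply Finset.sum_le_sum_of_subset_of_nonneg
            · intro S hS
              rw [Finset.mem_filter] at hS ⊢
              exact ⟨hS.1, hS.2.1⟩
            · intro S _ _
              exact mul_nonneg (hu0 k S) (hout0 S)
    have e : m (k + 1) = m k -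
        (1 / (n : ℝ)) * ∑ S ∈ univ.filter (fun S => f S ≤ x), uch q n k S * ∑ S', q S S'
        + (1 / (n : ℝ)) *
          ∑ S ∈ univ.filter (fun S => f S ≤ x), ∑ S', q S' S * uch q n k S' := by
      show ∑ S ∈ univ.filter (fun S => f S ≤ x), uch q n (k + 1) S =
        ∑ S ∈ univ.filter (fun S => f S ≤ x), uch q n k S - _ + _
      rw [Finset.mul_sum, Finset.mul_sum, ← Finset.sum_sub_distrib, ← Finset.sum_add_distrib]
      apply Finset.sum_congr rfl
      intro S _
      rw [uch_succ]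
      ring
    rw [e]
    have hninv : 0 ≤ 1 / (n : ℝ) := by positivity
    have key := mul_le_mul_of_nonneg_left
      (show (∑ S ∈ univ.filter (fun S => f S ≤ x), ∑ S', q S' S * uch q n k S') + (1 / 5) * T ≤
        ∑ S ∈ univ.filter (fun S => f S ≤ x), uch q n k S * ∑ S', q S S' by
          rw [c2]; linarith) hninv
    linarith
  have hsum : ∀ K : ℕ, (K : ℝ) ≤ n * Real.sqrt n →
      m K ≤ m 0 - K * ((1 / (n : ℝ)) * ((1 / 5) * T)) := by
    intro K
    induction K with
    | zero => intro _; simp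
    | succ K ih =>
      intro hK
      push_cast at hK
      have h1 := ih (by linarith)
      have h2 := hstep K (by linarith)
      push_cast
      linarith
  set K : ℕ := ⌊(n : ℝ) * Real.sqrt n⌋₊ with hK
  have hK1 : (K : ℝ) ≤ n * Real.sqrt n := Nat.floor_le (by positivity)
  have hK2 : (n : ℝ) * Real.sqrt n - 1 < K := Nat.sub_one_lt_floor _
  have h := hsum K hK1
  have hmK := hm0 K
  have h3 : (K : ℝ) * ((1 / (n : ℝ)) * ((1 / 5) * T)) ≤ Fintype.card Ω := by linarith
  have h4 : (n : ℝ) * Real.sqrt n / 2 ≤ K := by nlinarith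
  have h5 : ((n : ℝ) * Real.sqrt n / 2) * ((1 / (n : ℝ)) * ((1 / 5) * T)) ≤ Fintype.card Ω :=
    le_trans (mul_le_mul_of_nonneg_right h4 (by positivity)) h3
  have h6 : ((n : ℝ) * Real.sqrt n / 2) * ((1 / (n : ℝ)) * ((1 / 5) * T)) =
      Real.sqrt n * T / 10 := by
    field_simp
    ring
  rw [h6] at h5
  linarith

end Vale.Agent.Lib.P160.H44
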