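import Vale.Agent.Lib.P160.RV.Defs

/-!
# P160, piece SS-5: signs from subsets (`ss_row_of`)

A bound for the number of subsets of `Fin n` with a prescribed sum of strictly increasing
positive weights gives the same bound (in `D`, the number of distinct nonzero absolute values)
for the number of sign vectors with a prescribed signed sum.
-/

open Finset

namespace Vale.Agent.Lib.P160.H44

open Vale.Agent.Lib.P160

/-- `D` coordinates with distinct nonzero absolute values, listed in increasing order. -/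
theorem exists_order_pick {κ : Type} [Fintype κ] (w : κ → ℝ) (D : ℕ)
    (hD : D ≤ dabs w) :
    ∃ (e : Fin D → κ) (a : Fin D → ℝ), Function.Injective e ∧ (∀ i, 0 < a i) ∧ StrictMono a ∧
      ∀ i, |w (e i)| = a i := by
  classical
  unfold dabs at hD
  obtain ⟨T, hTsub, hTcard⟩ := Finset.exists_subset_card_eq hD
  let eo := T.orderEmbOfFin hTcard
  have hmem : ∀ i : Fin D, ∃ j, w j ≠ 0 ∧ |w j| = eo i := by
    intro i
    have h1 : eo i ∈ T := Finset.orderEmbOfFin_mem T hTcard i
    have h2 := hTsub h1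
    rw [Finset.mem_image] at h2
    obtain ⟨j, hj, hj'⟩ := h2
    exact ⟨j, (Finset.mem_filter.mp hj).2, hj'⟩
  choose e he1 he2 using hmem
  refine ⟨e, fun i => eo i, ?_, ?_, eo.strictMono, he2⟩
  · intro i i' hii
    apply eo.injective
    rw [← he2 i, ← he2 i', hii]
  · intro i
    show 0 < eo i
    rw [← he2 i]
    exact abs_pos.mpr (he1 i)

/-- **SS-5**: the subset sum bound implies the row bound. -/
theorem ss_row_of
    (h : ∃ C : ℝ, 0 < C ∧ ∀ (n : ℕ) (a : Fin n → ℝ), (∀ i, 0 < a i) →
      StrictMono a → ∀ x : ℝ,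
      (((univ : Finset (Finset (Fin n))).filter fun S => ∑ i ∈ S, a i = x).card : ℝ) *
        ((n : ℝ) * Real.sqrt n) ≤ C * 2 ^ n) :
    ∃ C : ℝ, 0 < C ∧ ∀ (κ : Type) [Fintype κ] [DecidableEq κ] (w : κ → ℝ) (c : ℝ)
      (D : ℕ), D ≤ dabs w →
      ((univ.filter fun x : κ → ℤˣ => sdot x w = c).card : ℝ) * ((D : ℝ) * Real.sqrt (D : ℝ)) ≤
        C * 2 ^ Fintype.card κ := by
  obtain ⟨C, hC, hS⟩ := h
  refine ⟨C, hC, ?_⟩
  intro κ _ _ w c D hD
  obtain ⟨e, a, he, hapos, hamono, hwa⟩ := exists_order_pick w D hD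
  set J : Finset κ := univ.image e with hJ
  have hJcard : J.card = D := by
    rw [hJ, Finset.card_image_of_injective _ he, Finset.card_univ, Fintype.card_fin]
  have hDle : D ≤ Fintype.card κ := by rw [← hJcard]; exact Finset.card_le_univ J
  let r : (κ → ℤˣ) → ({j // j ∉ J} → ℤˣ) := fun x j => x j.1
  let t : ({j // j ∉ J} → ℤˣ) → ℝ := fun y =>
    (c - ∑ j : {j // j ∉ J}, ((y j : ℤ) : ℝ) * w j.1 + ∑ i, a i) / 2
  set S := univ.filter fun x : κ → ℤˣ => sdot x w = c with hSdef
  have hdec : ∀ x : κ → ℤˣ, sdot x w =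
      2 * ∑ i ∈ posSet (fun i => w (e i)) (fun i => x (e i)), a i - ∑ i, a i +
        ∑ j : {j // j ∉ J}, ((x j.1 : ℤ) : ℝ) * w j.1 := by
    intro x
    have h1 : sdot x w =
        ∑ j ∈ J, ((x j : ℤ) : ℝ) * w j + ∑ j ∈ Jᶜ, ((x j : ℤ) : ℝ) * w j := by
      unfold sdot
      rw [Finset.sum_add_sum_compl]
    have h2 : ∑ j ∈ J, ((x j : ℤ) : ℝ) * w j =
        sdot (fun i => x (e i)) (fun i => w (e i)) := by
      unfold sdot
      rw [hJ, Finset.sum_image (fun i _ i' _ hii => he hii)]
    have h3 : ∑ j ∈ Jᶜ, ((x j : ℤ) : ℝ) * w j =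
        ∑ j : {j // j ∉ J}, ((x j.1 : ℤ) : ℝ) * w j.1 :=
      Finset.sum_subtype Jᶜ (fun j => Finset.mem_compl) (fun j => ((x j : ℤ) : ℝ) * w j)
    rw [h1, h2, h3, sdot_eq]
    simp only [hwa]
  have hfib : ∀ y : {j // j ∉ J} → ℤˣ,
      ((S.filter fun x => r x = y).card : ℝ) * ((D : ℝ) * Real.sqrt D) ≤ C * 2 ^ D := by
    intro y
    have hle : (S.filter fun x => r x = y).card ≤
        ((univ : Finset (Finset (Fin D))).filter fun P => ∑ i ∈ P, a i = t y).card := by
      apply Finset.card_le_card_of_injOn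
        (fun x => posSet (fun i => w (e i)) (fun i => x (e i)))
      · intro x hx
        rw [Finset.mem_coe, Finset.mem_filter, hSdef, Finset.mem_filter] at hx
        obtain ⟨⟨_, hx1⟩, hx2⟩ := hx
        rw [Finset.mem_coe, Finset.mem_filter]
        refine ⟨Finset.mem_univ _, ?_⟩
        have h4 := hdec x
        rw [hx1] at h4
        have h5 : t y = (c - ∑ j : {j // j ∉ J}, ((x j.1 : ℤ) : ℝ) * w j.1 + ∑ i, a i) / 2 := by
          rw [← hx2]
        rw [h5]
        linarith
      · intro x hx x' hx' hP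
        rw [Finset.mem_coe, Finset.mem_filter] at hx hx'
        have hinj := posSet_injective (fun i => w (e i))
          (fun i => by
            have h6 := hapos i
            rw [← hwa i] at h6
            exact abs_pos.mp h6)
        have h1 : (fun i => x (e i)) = (fun i => x' (e i)) := hinj hP
        funext j
        by_cases hj : j ∈ J
        · rw [hJ, Finset.mem_image] at hj
          obtain ⟨i, _, rfl⟩ := hj
          exact congr_fun h1 i
        · exact congr_fun (hx.2.trans hx'.2.symm) ⟨j, hj⟩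
    calc ((S.filter fun x => r x = y).card : ℝ) * ((D : ℝ) * Real.sqrt D)
        ≤ (((univ : Finset (Finset (Fin D))).filter fun P => ∑ i ∈ P, a i = t y).card : ℝ) *
            ((D : ℝ) * Real.sqrt D) := by
          apply mul_le_mul_of_nonneg_right (by exact_mod_cast hle) (by positivity)
      _ ≤ C * 2 ^ D := hS D a hapos hamono (t y)
  have hcard : S.card = ∑ y ∈ S.image r, (S.filter fun x => r x = y).card :=
    Finset.card_eq_sum_card_image r S
  have himg : (S.image r).card ≤ 2 ^ (Fintype.card κ - D) := by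
    calc (S.image r).card ≤ Fintype.card ({j // j ∉ J} → ℤˣ) := Finset.card_le_univ _
      _ = 2 ^ (Fintype.card κ - D) := by
        rw [Fintype.card_fun, Fintype.card_units_int, Fintype.card_subtype_compl,
          Fintype.card_coe, hJcard]
  calc ((univ.filter fun x : κ → ℤˣ => sdot x w = c).card : ℝ) * ((D : ℝ) * Real.sqrt D)
      = ∑ y ∈ S.image r, ((S.filter fun x => r x = y).card : ℝ) * ((D : ℝ) * Real.sqrt D) := by
        rw [← hSdef, hcard]; push_cast; rw [Finset.sum_mul]
    _ ≤ ∑ y ∈ S.image r, C * 2 ^ D := Finset.sum_le_sum fun y _ => hfib y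
    _ = (S.image r).card * (C * 2 ^ D) := by rw [Finset.sum_const, nsmul_eq_mul]
    _ ≤ (2 ^ (Fintype.card κ - D) : ℝ) * (C * 2 ^ D) := by
        apply mul_le_mul_of_nonneg_right _ (by positivity)
        exact_mod_cast himg
    _ = C * 2 ^ Fintype.card κ := by
        rw [mul_comm, mul_assoc, ← pow_add, Nat.add_sub_cancel' hDle]

end Vale.Agent.Lib.P160.H44
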