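import Vale.Agent.Lib.P160.helper4.SSSub
import Vale.Agent.Lib.P160.helper99.QQ
import Vale.Agent.Lib.P160.helper94.OutIn
import Vale.Agent.Lib.P160.helper7.BadCount
import Vale.Agent.Lib.P160.helper44.ChainLevel
import Vale.Agent.Lib.P160.helper44.SSRowOf

/-!
# P160: the Sarkozy-Szemeredi type row bound `ss_row` (assembly of the pieces SS-1 .. SS-5)
-/

open Finset

namespace Vale.Agent.Lib.P160.H44

open Vale.Agent.Lib.P160 Vale.Agent.Lib.P160.H4

/-- SS-4: the subset sum bound. -/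
theorem subset_sum : ∃ C : ℝ, 0 < C ∧ ∀ (n : ℕ) (a : Fin n → ℝ), (∀ i, 0 < a i) →
    StrictMono a → ∀ x : ℝ,
    (((univ : Finset (Finset (Fin n))).filter fun S => ∑ i ∈ S, a i = x).card : ℝ) *
      ((n : ℝ) * Real.sqrt n) ≤ C * 2 ^ n := by
  apply subset_sum_of
  · intro n hn a ha hm x
    have h := chain_level (Ω := Finset (Fin n)) (qq n) (fun S => ∑ i ∈ S, a i)
      (fun S => S.card) n hn (H99.qq_nonneg n) (H99.qq_lt n a ha hm) (H99.qq_card n)
      (H99.qq_entry n)
      (fun S => by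
        rw [H99.qq_in_eq, H99.qq_out_eq]
        exact H94.inF_sub_outF n (by omega) S)
      (fun S => by rw [H99.qq_out_eq]; exact H94.outF_le n S)
      (fun S => by
        have h1 := Finset.card_le_univ S
        rwa [Fintype.card_fin] at h1) x
    have hc : (Fintype.card (Finset (Fin n)) : ℝ) = 2 ^ n := by
      rw [Fintype.card_finset, Fintype.card_fin]; push_cast; rfl
    rw [hc] at h
    exact h
  · intro n S
    rw [H99.qq_out_eq]
    exact H94.outF_ge n S
  · exact H7.bad_count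

/-- **The row bound.** -/
theorem ss_row : ∃ C : ℝ, 0 < C ∧ ∀ (κ : Type) [Fintype κ] [DecidableEq κ] (w : κ → ℝ) (c : ℝ)
    (D : ℕ), D ≤ dabs w →
    ((univ.filter fun x : κ → ℤˣ => sdot x w = c).card : ℝ) * ((D : ℝ) * Real.sqrt (D : ℝ)) ≤
      C * 2 ^ Fintype.card κ := ss_row_of subset_sum

end Vale.Agent.Lib.P160.H44
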